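import Mathlib

/-!
# Pure systems: the common interface for the two factors and their tensor product

`Pure a` says that `a` is a combination of the isometries `x w`. The three fields `separate`, `detect` and
`dense` are everything that is used about an algebra to make it purely infinite simple with trivial centre.
-/

namespace Vale.Agent.P193

/-- Isometries indexed by a monoid of words, with detection of nonzero elements. -/
structure PureSystem (A : Type*) [Ring A] [Algebra (ZMod 2) A] where
  W : Type
  [monoid : Monoid W]
  x : W →* A
  y : W → A
  left_inv : ∀ w, y w * x w = 1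
  separate : ∀ (S : Finset W) (n : ℕ), ∃ f : Fin n → W, ∀ w ∈ S, ∀ w' ∈ S, ∀ i j,
    (w, i) ≠ (w', j) → y (w * f i) * x (w' * f j) = 0
  detect : ∀ a : A, a ≠ 0 →
    ∃ w, a * x w ∈ Submodule.span (ZMod 2) (Set.range x) ∧ a * x w ≠ 0
  dense : ∀ (a : A) (w : W),
    ∃ v, a * x (w * v) ∈ Submodule.span (ZMod 2) (Set.range x)

attribute [instance] PureSystem.monoid

/-- A pure system in which every finite set of elements becomes, cell by cell of some finite cover of
the unit, a combination of elements which a single substitution turns into different isometries. -/
structure CoveredSystem (A : Type*) [Ring A] [Algebra (ZMod 2) A] extends PureSystem A where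
  cover : ∀ s : Finset A, ∃ (ι : Type) (_ : Fintype ι) (u v : ι → A),
    (∑ q, u q * v q = 1) ∧ ∀ q, ∃ (κ : Type) (_ : Fintype κ) (e : κ → A) (θ : W) (out : κ → W),
      (∀ b ∈ s, b * u q ∈ Submodule.span (ZMod 2) (Set.range e)) ∧
      (∀ j, e j * x θ = x (out j)) ∧ Function.Injective out

end Vale.Agent.P193
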