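import Vale.Agent.P193.Pure.Basic

/-!
# The tensor product of a pure system and a covered system
-/

namespace Vale.Agent.P193

open scoped TensorProduct

variable {A B : Type} [Ring A] [Ring B] [Algebra (ZMod 2) A] [Algebra (ZMod 2) B]

open Algebra.TensorProduct (tmul_mul_tmul includeLeft includeRight)

/-- The isometries of the tensor product. -/
noncomputable def tensorX (P : PureSystem A) (Q : CoveredSystem B) :
    P.W × Q.W →* A ⊗[ZMod 2] B where
  toFun w := P.x w.1 ⊗ₜ Q.x w.2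
  map_one' := by simp [Algebra.TensorProduct.one_def]
  map_mul' w w' := by simp [tmul_mul_tmul]

theorem tensorX_apply (P : PureSystem A) (Q : CoveredSystem B) (w : P.W × Q.W) :
    tensorX P Q w = P.x w.1 ⊗ₜ Q.x w.2 := rfl

theorem tmul_mem_span (P : PureSystem A) (Q : CoveredSystem B) {a : A} {b : B}
    (ha : a ∈ Submodule.span (ZMod 2) (Set.range P.x))
    (hb : b ∈ Submodule.span (ZMod 2) (Set.range Q.x)) :
    a ⊗ₜ[ZMod 2] b ∈ Submodule.span (ZMod 2) (Set.range (tensorX P Q)) := by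
  induction ha using Submodule.span_induction with
  | mem a ha =>
    obtain ⟨w, rfl⟩ := ha
    induction hb using Submodule.span_induction with
    | mem b hb =>
      obtain ⟨w', rfl⟩ := hb
      exact Submodule.subset_span ⟨(w, w'), rfl⟩
    | zero => simp
    | add b c _ _ hb hc => rw [TensorProduct.tmul_add]; exact add_mem hb hc
    | smul r b _ hb => rw [TensorProduct.tmul_smul]; exact Submodule.smul_mem _ _ hb
  | zero => simp
  | add a c _ _ ha hc => rw [TensorProduct.add_tmul]; exact add_mem ha hc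
  | smul r a _ ha => rw [← TensorProduct.smul_tmul']; exact Submodule.smul_mem _ _ ha

theorem tensor_dense (P : PureSystem A) (Q : CoveredSystem B) (a : A ⊗[ZMod 2] B)
    (w : P.W × Q.W) :
    ∃ v, a * tensorX P Q (w * v) ∈ Submodule.span (ZMod 2) (Set.range (tensorX P Q)) := by
  induction a using TensorProduct.induction_on generalizing w with
  | zero => exact ⟨1, by simp⟩
  | tmul a b =>
    obtain ⟨v, hv⟩ := P.dense a w.1
    obtain ⟨v', hv'⟩ := Q.dense b w.2
    refine ⟨(v, v'), ?_⟩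
    rw [tensorX_apply, tmul_mul_tmul]
    exact tmul_mem_span P Q hv hv'
  | add a b ha hb =>
    obtain ⟨v, hv⟩ := ha w
    obtain ⟨v', hv'⟩ := hb (w * v)
    refine ⟨v * v', ?_⟩
    rw [← mul_assoc, add_mul]
    refine add_mem ?_ hv'
    rw [map_mul, ← mul_assoc]
    generalize a * tensorX P Q (w * v) = z at hv
    induction hv using Submodule.span_induction with
    | mem b hb =>
      obtain ⟨u, rfl⟩ := hb
      exact Submodule.subset_span ⟨u * v', map_mul _ _ _⟩
    | zero => simp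
    | add b c _ _ hb hc => rw [add_mul]; exact add_mem hb hc
    | smul r b _ hb => rw [smul_mul_assoc]; exact Submodule.smul_mem _ _ hb

theorem exists_tmul_sum {κ : Type} [Fintype κ] (e : κ → B) (a : A) {b : B}
    (hb : b ∈ Submodule.span (ZMod 2) (Set.range e)) :
    ∃ γ : κ → A, a ⊗ₜ[ZMod 2] b = ∑ j, γ j ⊗ₜ[ZMod 2] e j := by
  obtain ⟨c, rfl⟩ := (Submodule.mem_span_range_iff_exists_fun (ZMod 2)).1 hb
  refine ⟨fun j => c j • a, ?_⟩
  rw [TensorProduct.tmul_sum]
  exact Finset.sum_congr rfl fun j _ => (TensorProduct.smul_tmul _ _ _).symm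

theorem tensor_detect (P : PureSystem A) (Q : CoveredSystem B) [Nontrivial (A ⊗[ZMod 2] B)]
    (a : A ⊗[ZMod 2] B) (ha : a ≠ 0) :
    ∃ m, a * m ∈ Submodule.span (ZMod 2) (Set.range (tensorX P Q)) ∧ a * m ≠ 0 := by
  classical
  obtain ⟨s, rfl⟩ := TensorProduct.exists_finset (R := ZMod 2) a
  obtain ⟨ι, _, u, v, huv, hq⟩ := Q.cover (s.image Prod.snd)
  set a := ∑ i ∈ s, i.1 ⊗ₜ[ZMod 2] i.2 with ha_def
  obtain ⟨q, hq0⟩ : ∃ q, a * (1 ⊗ₜ[ZMod 2] u q) ≠ 0 := by
    by_contra hc
    push Not at hc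
    apply ha
    calc a = a * (1 ⊗ₜ[ZMod 2] (∑ q, u q * v q)) := by
            rw [huv, ← Algebra.TensorProduct.one_def, mul_one]
      _ = 0 := by
        rw [TensorProduct.tmul_sum, Finset.mul_sum]
        refine Finset.sum_eq_zero fun q _ => ?_
        rw [show (1 : A) ⊗ₜ[ZMod 2] (u q * v q) = (1 ⊗ₜ u q) * (1 ⊗ₜ v q) by
          rw [tmul_mul_tmul, one_mul], ← mul_assoc, hc q, zero_mul]
  obtain ⟨κ, _, e, θ, out, he, hθ, hout⟩ := hq q
  -- write `a * (1 ⊗ u q)` over the family `e`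
  have hmem : ∀ i : s, i.1.2 * u q ∈ Submodule.span (ZMod 2) (Set.range e) :=
    fun i => he _ (Finset.mem_image_of_mem _ i.2)
  choose γ' hγ' using fun i : s => exists_tmul_sum e i.1.1 (hmem i)
  let γ : κ → A := fun j => ∑ i, γ' i j
  have haq : a * (1 ⊗ₜ[ZMod 2] u q) = ∑ j, γ j ⊗ₜ[ZMod 2] e j := by
    simp only [γ, TensorProduct.sum_tmul]
    rw [Finset.sum_comm, ha_def, Finset.sum_mul, ← Finset.sum_coe_sort s]
    refine Finset.sum_congr rfl fun i _ => ?_
    rw [tmul_mul_tmul, mul_one, hγ' i]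
  obtain ⟨j0, hj0⟩ : ∃ j, γ j ≠ 0 := by
    by_contra hc
    push Not at hc
    exact hq0 (by rw [haq]; simp [hc])
  obtain ⟨m, hm, hm0⟩ := P.toWeak.detect (γ j0) hj0
  obtain ⟨g, Y, hY⟩ := P.toWeak.exists_stable hm hm0
  obtain ⟨vA, hvA⟩ := P.toWeak.exists_pure_family (Finset.univ : Finset κ) (fun j => γ j * m) g
  refine ⟨(1 ⊗ₜ u q) * ((m * P.x (g * vA)) ⊗ₜ Q.x θ), ?_, ?_⟩
  · rw [← mul_assoc, haq, Finset.sum_mul]
    refine Submodule.sum_mem _ fun j _ => ?_
    rw [tmul_mul_tmul, hθ, ← mul_assoc]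
    exact tmul_mem_span P Q (hvA j (Finset.mem_univ _)) (Submodule.subset_span ⟨_, rfl⟩)
  · intro h0
    rw [← mul_assoc, haq, Finset.sum_mul] at h0
    obtain ⟨f, hf⟩ := Q.separate (Finset.univ.image out) 1
    have h := congrArg (fun z => ((P.y vA * Y) ⊗ₜ[ZMod 2] Q.y (out j0 * f 0)) *
      (z * (1 ⊗ₜ[ZMod 2] Q.x (f 0)))) h0
    simp only [Finset.sum_mul, Finset.mul_sum, zero_mul, mul_zero, tmul_mul_tmul, hθ, mul_one] at h
    rw [Finset.sum_eq_single j0] at h
    · have h1 : P.y vA * Y * (γ j0 * (m * P.x (g * vA))) = 1 := by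
        rw [← mul_assoc (γ j0)]; exact hY vA
      rw [h1, ← map_mul, Q.left_inv, ← Algebra.TensorProduct.one_def] at h
      exact one_ne_zero h
    · intro j _ hj
      rw [← map_mul Q.x, hf _ (Finset.mem_image_of_mem _ (Finset.mem_univ _)) _
        (Finset.mem_image_of_mem _ (Finset.mem_univ _)) 0 0 (by simp [hout.eq_iff, Ne.symm hj]),
        TensorProduct.tmul_zero]
    · simp

/-- The tensor product as a weak pure system. -/
noncomputable def tensorWeak (P : PureSystem A) (Q : CoveredSystem B)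
    [Nontrivial (A ⊗[ZMod 2] B)] : WeakPure (A ⊗[ZMod 2] B) where
  W := P.W × Q.W
  x := tensorX P Q
  y w := P.y w.1 ⊗ₜ Q.y w.2
  left_inv w := by
    rw [tensorX_apply, tmul_mul_tmul, P.left_inv, Q.left_inv, Algebra.TensorProduct.one_def]
  separate S n := by
    classical
    obtain ⟨f, hf⟩ := P.separate (S.image Prod.fst) n
    obtain ⟨f', hf'⟩ := Q.separate (S.image Prod.snd) n
    refine ⟨fun i => (f i, f' i), fun w hw w' hw' i j hne => ?_⟩
    rw [tensorX_apply, tmul_mul_tmul]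
    simp only [Prod.fst_mul, Prod.snd_mul]
    by_cases h : (w.1, i) = (w'.1, j)
    · have h2 : (w.2, i) ≠ (w'.2, j) := by
        intro h'
        simp only [Prod.mk.injEq] at h h'
        exact hne (by rw [Prod.ext h.1 h'.1, h.2])
      rw [hf' _ (Finset.mem_image_of_mem _ hw) _ (Finset.mem_image_of_mem _ hw') i j h2,
        TensorProduct.tmul_zero]
    · rw [hf _ (Finset.mem_image_of_mem _ hw) _ (Finset.mem_image_of_mem _ hw') i j h,
        TensorProduct.zero_tmul]
  detect := tensor_detect P Q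
  dense := tensor_dense P Q

theorem pureHalf : PureHalf := by
  intro A B _ _ _ _ hA hB P Q
  have : Nontrivial (A ⊗[ZMod 2] B) :=
    (Algebra.TensorProduct.includeLeft_injective (R := ZMod 2) (S := ZMod 2) (A := A) (B := B)
      (algebraMap (ZMod 2) B).injective).nontrivial
  exact ⟨this, (tensorWeak P Q).uniformlySimple, (tensorWeak P Q).trivialCentre⟩

end Vale.Agent.P193
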