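import Vale.Agent.P193.Assembly

/-!
# Purely infinite simplicity and trivial centre from a system of isometries

`WeakPure` is `PureSystem` with the detecting multiplier allowed to be any element.
-/

namespace Vale.Agent.P193

/-- A pure system in which detection may use any element as multiplier. -/
structure WeakPure (A : Type*) [Ring A] [Algebra (ZMod 2) A] where
  W : Type
  [monoid : Monoid W]
  x : W →* A
  y : W → A
  left_inv : ∀ w, y w * x w = 1
  separate : ∀ (S : Finset W) (n : ℕ), ∃ f : Fin n → W, ∀ w ∈ S, ∀ w' ∈ S, ∀ i j,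
    (w, i) ≠ (w', j) → y (w * f i) * x (w' * f j) = 0
  detect : ∀ a : A, a ≠ 0 →
    ∃ m, a * m ∈ Submodule.span (ZMod 2) (Set.range x) ∧ a * m ≠ 0
  dense : ∀ (a : A) (w : W),
    ∃ v, a * x (w * v) ∈ Submodule.span (ZMod 2) (Set.range x)

attribute [instance] WeakPure.monoid

variable {A : Type*} [Ring A] [Algebra (ZMod 2) A]

/-- A pure system is a weak one. -/
def PureSystem.toWeak (P : PureSystem A) : WeakPure A where
  W := P.W
  x := P.x
  y := P.y
  left_inv := P.left_inv
  separate := P.separate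
  detect a ha := by
    obtain ⟨w, h1, h2⟩ := P.detect a ha
    exact ⟨P.x w, h1, h2⟩
  dense := P.dense

namespace WeakPure

variable (P : WeakPure A)

/-- Pure elements. -/
abbrev span : Submodule (ZMod 2) A := Submodule.span (ZMod 2) (Set.range P.x)

theorem mul_x_mem {a : A} (ha : a ∈ P.span) (v : P.W) : a * P.x v ∈ P.span := by
  induction ha using Submodule.span_induction with
  | mem b hb =>
    obtain ⟨w, rfl⟩ := hb
    exact Submodule.subset_span ⟨w * v, map_mul _ _ _⟩
  | zero => simp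
  | add b c _ _ hb hc => rw [add_mul]; exact add_mem hb hc
  | smul r b _ hb => rw [smul_mul_assoc]; exact Submodule.smul_mem _ _ hb

theorem exists_pure_family {ι : Type*} (t : Finset ι) (a : ι → A) (w : P.W) :
    ∃ v, ∀ i ∈ t, a i * P.x (w * v) ∈ P.span := by
  classical
  induction t using Finset.induction with
  | empty => exact ⟨1, by simp⟩
  | @insert i t _ ih =>
    obtain ⟨v, hv⟩ := ih
    obtain ⟨v', hv'⟩ := P.dense (a i) (w * v)
    refine ⟨v * v', fun j hj => ?_⟩
    rw [← mul_assoc]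
    rcases Finset.mem_insert.1 hj with rfl | hj
    · exact hv'
    · rw [map_mul, ← mul_assoc]; exact P.mul_x_mem (hv j hj) v'

theorem exists_coeff {a : A} (ha : a ∈ P.span) :
    ∃ c : P.W →₀ ZMod 2, c.sum (fun w r => r • P.x w) = a :=
  Finsupp.mem_span_range_iff_exists_finsupp.1 ha

theorem eq_one_of_mem_support {c : P.W →₀ ZMod 2} {w : P.W} (hw : w ∈ c.support) : c w = 1 := by
  have h := Finsupp.mem_support_iff.1 hw
  generalize c w = r at h ⊢
  revert r; decide

/-- Evaluation of one coefficient by a separated left inverse. -/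
theorem coeff_mul {S : Finset P.W} {n : ℕ} {f : Fin n → P.W}
    (hf : ∀ w ∈ S, ∀ w' ∈ S, ∀ i j, (w, i) ≠ (w', j) → P.y (w * f i) * P.x (w' * f j) = 0)
    (c : P.W →₀ ZMod 2) (hc : c.support ⊆ S) {w0 : P.W} (hw0 : w0 ∈ S) (i j : Fin n) :
    P.y (w0 * f i) * (c.sum (fun w r => r • P.x w) * P.x (f j)) =
      if i = j then c w0 • (1 : A) else 0 := by
  classical
  rw [Finsupp.sum, Finset.sum_mul, Finset.mul_sum]
  simp only [smul_mul_assoc, mul_smul_comm, ← map_mul]
  rw [Finset.sum_eq_single w0]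
  · by_cases h : i = j
    · subst h; rw [P.left_inv, if_pos rfl]
    · rw [hf w0 hw0 w0 hw0 i j (by simp [h]), smul_zero, if_neg h]
  · intro w hw hne
    rw [hf w0 hw0 w (hc hw) i j (by simp [Ne.symm hne]), smul_zero]
  · intro h
    rw [Finsupp.notMem_support_iff.1 h, zero_smul]

/-- A nonzero pure element has an extension which keeps it nonzero after every further extension. -/
theorem exists_stable {a : A} (ha : a ∈ P.span) (h0 : a ≠ 0) :
    ∃ (g : P.W) (Y : A), ∀ v, (P.y v * Y) * (a * P.x (g * v)) = 1 := by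
  classical
  obtain ⟨c, rfl⟩ := P.exists_coeff ha
  obtain ⟨w0, hw0⟩ : c.support.Nonempty := by
    rw [Finset.nonempty_iff_ne_empty]
    intro h; apply h0; simp [Finsupp.sum, h]
  obtain ⟨f, hf⟩ := P.separate c.support 1
  refine ⟨f 0, P.y (w0 * f 0), fun v => ?_⟩
  have h := P.coeff_mul hf c (Finset.Subset.refl _) hw0 0 0
  rw [if_pos rfl, P.eq_one_of_mem_support hw0, one_smul] at h
  rw [map_mul]
  calc P.y v * P.y (w0 * f 0) * (c.sum (fun w r => r • P.x w) * (P.x (f 0) * P.x v))
      = P.y v * (P.y (w0 * f 0) * (c.sum (fun w r => r • P.x w) * P.x (f 0))) * P.x v := by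
        simp only [mul_assoc]
    _ = 1 := by rw [h, mul_one, P.left_inv]

theorem uniformlySimple (P : WeakPure A) [Nontrivial A] : UniformlySimple A := by
  classical
  intro s hs
  -- multipliers making everything pure and one element nonzero
  have step : ∀ a : s, ∃ m, (∀ b : s, b.1 * m ∈ P.span) ∧ a.1 * m ≠ 0 := by
    intro a
    obtain ⟨m, hm, hm0⟩ := P.detect a.1 (hs a.1 a.2)
    obtain ⟨g, Y, hY⟩ := P.exists_stable hm hm0
    obtain ⟨v, hv⟩ := P.exists_pure_family (Finset.univ : Finset s) (fun b => b.1 * m) g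
    refine ⟨m * P.x (g * v), fun b => ?_, fun h => ?_⟩
    · rw [← mul_assoc]; exact hv b (Finset.mem_univ _)
    · have h1 := hY v
      rw [mul_assoc a.1, h, mul_zero] at h1
      exact zero_ne_one h1
  choose m hm hm0 using step
  choose c hc using fun a b => P.exists_coeff (hm a b)
  obtain ⟨f, hf⟩ := P.separate (Finset.univ.biUnion fun a : s =>
    Finset.univ.biUnion fun b : s => (c a b).support) (Fintype.card s)
  let e := Fintype.equivFin s
  refine ⟨∑ a, m a * P.x (f (e a)), fun b hb => ?_⟩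
  obtain ⟨w0, hw0⟩ : (c ⟨b, hb⟩ ⟨b, hb⟩).support.Nonempty := by
    rw [Finset.nonempty_iff_ne_empty]
    intro h
    apply hm0 ⟨b, hb⟩
    rw [← hc ⟨b, hb⟩ ⟨b, hb⟩]; simp [Finsupp.sum, h]
  refine ⟨P.y (w0 * f (e ⟨b, hb⟩)), ?_⟩
  rw [Finset.mul_sum, Finset.sum_eq_single (⟨b, hb⟩ : s)]
  · rw [mul_assoc, ← mul_assoc b, ← hc ⟨b, hb⟩ ⟨b, hb⟩]
    rw [P.coeff_mul hf _ ?_ ?_, if_pos rfl, P.eq_one_of_mem_support hw0, one_smul]
    · intro w hw; simp only [Finset.mem_biUnion]; exact ⟨_, Finset.mem_univ _, _, Finset.mem_univ _, hw⟩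
    · simp only [Finset.mem_biUnion]; exact ⟨_, Finset.mem_univ _, _, Finset.mem_univ _, hw0⟩
  · intro a _ ha
    rw [mul_assoc, ← mul_assoc b, show b * m a = (⟨b, hb⟩ : s).1 * m a from rfl,
      ← hc a ⟨b, hb⟩]
    rw [P.coeff_mul hf _ ?_ ?_, if_neg (e.injective.ne (Ne.symm ha))]
    · intro w hw; simp only [Finset.mem_biUnion]; exact ⟨_, Finset.mem_univ _, _, Finset.mem_univ _, hw⟩
    · simp only [Finset.mem_biUnion]; exact ⟨_, Finset.mem_univ _, _, Finset.mem_univ _, hw0⟩
  · intro h; exact absurd (Finset.mem_univ _) h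

theorem trivialCentre (P : WeakPure A) : TrivialCentre A := by
  classical
  intro z hz
  obtain ⟨v, hv⟩ := P.dense z 1
  rw [one_mul] at hv
  obtain ⟨c, hc⟩ := P.exists_coeff hv
  obtain ⟨f, hf⟩ := P.separate (insert v c.support) 1
  have h := P.coeff_mul hf c (Finset.subset_insert _ _) (Finset.mem_insert_self v _) 0 0
  rw [if_pos rfl, hc] at h
  have hzx : P.y (v * f 0) * (z * P.x v * P.x (f 0)) = z := by
    rw [mul_assoc z, ← map_mul, hz (P.x (v * f 0)), ← mul_assoc, P.left_inv, one_mul]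
  rw [hzx] at h
  rcases (show ∀ r : ZMod 2, r = 0 ∨ r = 1 by decide) (c v) with h' | h'
  · left; rw [h, h', zero_smul]
  · right; rw [h, h', one_smul]

end WeakPure

end Vale.Agent.P193
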